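import Vale.Agent.P330.Eol.Sys

/-!
P330, End-of-Line as a local Boolean line system of linear size.
-/

namespace Vale.Agent.P330.Eol

open Vale.Agent.Lib.PolyTime hiding C P
open Vale.Agent.Lib.Dep

theorem G_pos (I : EOL) : 0 < G I := by have := two_le_G (I := I); omega

/-- the variables -/
abbrev X (I : EOL) : Type := Fin 6 × Fin (G I)

/-- the variable with the given kind and item -/
def pos (I : EOL) (k i : ℕ) : X I :=
  (⟨k % 6, Nat.mod_lt _ (by norm_num)⟩, ⟨i % G I, Nat.mod_lt _ (G_pos I)⟩)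

/-- the rule of a variable -/
def rule (I : EOL) (f : ℕ → ℕ → (Fin 16 → Bool) → Bool) (p : X I) : Rule 0 16 (X I) Bool Bool :=
  ⟨fun j => (none, pos I (pk p.1 j) (pa I p.2 j)), f p.1 p.2⟩

/-- the system -/
def M (I : EOL) : LBL 0 0 16 (X I) where
  val := rule I (valN I)
  suc := rule I (sucN I)
  pre := rule I (preN I)
  inp j := j.elim0
  out i := i.elim0
  first := pos I 4 0
  last := pos I 5 0

/-- the values of an assignment -/
def rd {I : EOL} (x : X I → Bool) (k i : ℕ) : Bool := x (pos I k i)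

/-- the code of a state -/
def en (I : EOL) (ph : Bool) (v : List Bool) (j : ℕ) : X I → Bool := fun p => e I ph v j p.1 p.2

/-- the decoder -/
def dec (I : EOL) (x : Vec (X I) Bool) : List Bool := ((elems (X I)).map x).take I.n

variable {I : EOL} {ph : Bool} {v : List Bool} {j : ℕ}

theorem eval_rule (f : ℕ → ℕ → (Fin 16 → Bool) → Bool) (p : X I) (x : X I → Bool) :
    (rule I f p).eval noInp x = f p.1 p.2 (view I (rd x) p.1 p.2) := rfl

theorem pos_eq (p : X I) : pos I p.1 p.2 = p :=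
  Prod.ext (Fin.ext (Nat.mod_eq_of_lt p.1.2)) (Fin.ext (Nat.mod_eq_of_lt p.2.2))

theorem pos_val {k i : ℕ} (hk : k < 6) (hi : i < G I) :
    ((pos I k i).1 : ℕ) = k ∧ ((pos I k i).2 : ℕ) = i := ⟨Nat.mod_eq_of_lt hk, Nat.mod_eq_of_lt hi⟩

theorem is_en : Is I (rd (en I ph v j)) ph v j := fun k hk i hi => by
  rw [rd, en, (pos_val hk hi).1, (pos_val hk hi).2]

theorem valid_en (hs : OK I ph v j) : (M I).Valid noSym (en I ph v j) :=
  ⟨fun p => is_en.val hs p.1.2 p.2.2, fun j => j.elim0⟩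

theorem valid_inv {x : X I → Bool} (h : (M I).Valid noSym x) :
    ∃ ph v j, OK I ph v j ∧ x = en I ph v j := by
  obtain ⟨ph, v, j, h1, h2⟩ := exists_is (I := I) (r := rd x) fun k hk i hi => by
    have h3 := (eval_rule (valN I) (pos I k i) x).symm.trans (h.1 (pos I k i))
    rwa [(pos_val hk hi).1, (pos_val hk hi).2] at h3
  refine ⟨ph, v, j, h1, funext fun p => ?_⟩
  rw [en, ← h2 p.1 p.1.2 p.2 p.2.2, rd, pos_eq]

theorem en_last : en I ph v j (M I).last = false :=
  (is_en (I := I) 5 (by norm_num) 0 (G_pos I)).trans rfl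

theorem en_first : en I ph v j (M I).first = (!ph && decide (j = 0) && decide (v = z I)) :=
  is_en.r4

theorem start_eq : (M I).start noSym = en I false (z I) 0 := by
  funext p
  have h1 : (p = (M I).first ∨ ∃ (j : Fin 0) (i : Fin 0), (M I).inp j i = p ∧
      noSym j i = true) ↔ (p.1 : ℕ) = 4 ∧ (p.2 : ℕ) = 0 := by
    have h2 := pos_val (I := I) (k := 4) (i := 0) (by norm_num) (G_pos I)
    refine ⟨fun h => ?_, fun h => Or.inl ?_⟩
    · rcases h with h | ⟨j, -⟩
      · rw [h]; exact h2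
      · exact j.elim0
    · rw [← pos_eq p, h.1, h.2]; rfl
  rw [LBL.start, en, e]
  simp only [h1]
  split_ifs with h3 h4 h5 h6 h7
  · simp [h3, c]
  · simp [h4]
  · simp [h5]
  · simp [h6]
  · simp [h7]
  · simpa using h7

theorem view_ph (p : X I) : view I (rd (en I ph v j)) p.1 p.2 0 = ph := by rw [view0, is_en.r3]

theorem step_en {ph' : Bool} {v' : List Bool} {j' : ℕ} (h1 : OK I ph v j) (h2 : OK I ph' v' j')
    (h3 : ¬ (ph' = false ∧ j' = 0 ∧ v' = z I))
    (h4 : ∀ p : X I, (if ph = true then downN I p.1 p.2 (view I (rd (en I ph v j)) p.1 p.2)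
      else upN I p.1 p.2 (view I (rd (en I ph v j)) p.1 p.2)) = e I ph' v' j' p.1 p.2)
    (h5 : ∀ p : X I, (if ph' = true then upN I p.1 p.2 (view I (rd (en I ph' v' j')) p.1 p.2)
      else downN I p.1 p.2 (view I (rd (en I ph' v' j')) p.1 p.2)) = e I ph v j p.1 p.2) :
    (M I).Step noSym (en I ph v j) (en I ph' v' j') := by
  refine ⟨valid_en h1, valid_en h2, en_last, ?_, fun p => ?_, fun p => ?_⟩
  · rw [en_first]
    simpa [and_assoc] using h3
  · rw [show (M I).suc p = rule I (sucN I) p from rfl, eval_rule, sucN, view_ph]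
    exact h4 p
  · rw [show (M I).pre p = rule I (preN I) p from rfl, eval_rule, preN, view_ph]
    exact h5 p

theorem step_fill (hv : v.length = I.n) (hj : j < G I) :
    (M I).Step noSym (en I false v j) (en I false v (j + 1)) :=
  step_en ⟨hv, hj.le, by simp⟩ ⟨hv, hj, by simp⟩ (by simp) (fun p => is_en.up hv hj p.2.2)
    fun p => is_en.down hv hj p.2.2

theorem step_erase (hv : v.length = I.n) (hz : v ≠ z I) (hj : j < G I) :
    (M I).Step noSym (en I true v (j + 1)) (en I true v j) :=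
  step_en ⟨hv, hj, fun _ => hz⟩ ⟨hv, hj.le, fun _ => hz⟩ (by simp)
    (fun p => is_en.down hv hj p.2.2) fun p => is_en.up hv hj p.2.2

theorem step_flip (hv : v.length = I.n) (hz : v ≠ z I) :
    (M I).Step noSym (en I true v 0) (en I false v 0) :=
  step_en ⟨hv, Nat.zero_le _, fun _ => hz⟩ ⟨hv, Nat.zero_le _, by simp⟩ (by simp [hz])
    (fun p => is_en.flip hz p.2.2) fun p => is_en.flip hz p.2.2

theorem step_swap {w : List Bool} (h1 : I.S.eval v = w) (h2 : I.P.eval w = v) (hz : w ≠ z I) :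
    (M I).Step noSym (en I false v (G I)) (en I true w (G I)) := by
  refine step_en ⟨h2 ▸ BCirc.length_eval _ _, le_rfl, by simp⟩
    ⟨h1 ▸ BCirc.length_eval _ _, le_rfl, fun _ => hz⟩ (by simp) (fun p => ?_) fun p => ?_
  · rw [← h1] at h2 ⊢
    exact (is_en (ph := false) (v := v)).swap h2 p.2.2
  · rw [← h2] at h1 ⊢
    exact (is_en (ph := true) (v := w)).swap h1 p.2.2

theorem elems_X (I : EOL) : elems (X I) = List.finRange 6 ×ˢ List.finRange (G I) := rfl

theorem dec_en (hv : v.length = I.n) : dec I (en I ph v j) = v := by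
  have h0 := n_lt_G (I := I)
  have h1 : List.finRange 6 = (0 : Fin 6) :: (List.finRange 6).tail := by decide
  show ((elems (X I)).map (en I ph v j)).take I.n = v
  rw [elems_X, h1, List.product_cons, List.map_append,
    List.take_append_of_le_length (by simp; omega)]
  refine List.ext_getElem (by simp; omega) fun i h2 h3 => ?_
  have h4 : i < I.n := hv ▸ h3
  rw [List.getElem_take, List.getElem_map, List.getElem_map, List.getElem_finRange, en, e,
    if_pos (by rfl)]
  simp only [Fin.val_cast]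
  rw [c, tab_z_in h4, tab_in hv h4, Bool.xor_false, List.getD_eq_getElem _ _ h3]

theorem ends {x : X I → Bool} (h : (M I).End noSym x) : I.Solution (dec I x) := by
  obtain ⟨ph, v, j, hs, rfl⟩ := valid_inv h.1
  rw [dec_en hs.len]
  have hP : I.P.eval (z I) = z I := I.pred_zero
  have hS : I.S.eval (z I) ≠ z I := I.succ_zero
  have hPS : I.P.eval (I.S.eval (z I)) = z I := I.pred_succ_zero
  rcases h.2 with h1 | ⟨h1, h2⟩
  · cases ph with
    | true =>
      cases j with
      | zero => exact absurd ⟨_, step_flip hs.len (hs.ne rfl)⟩ h1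
      | succ j => exact absurd ⟨_, step_erase hs.len (hs.ne rfl) hs.le⟩ h1
    | false =>
      rcases hs.le.lt_or_eq with h3 | rfl
      · exact absurd ⟨_, step_fill hs.len h3⟩ h1
      · have h4 : I.P.eval (I.S.eval v) ≠ v := fun h4 => h1 ⟨_, step_swap rfl h4 fun h5 => by
          rw [h5, hP] at h4
          exact hS (by rwa [← h4] at h5)⟩
        exact ⟨hs.len, fun h5 => h4 (by rw [h5]; exact hPS), Or.inl h4⟩
  · cases ph with
    | true =>
      rcases hs.le.lt_or_eq with h3 | rfl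
      · exact absurd ⟨_, step_erase hs.len (hs.ne rfl) h3⟩ h2
      · exact ⟨hs.len, hs.ne rfl, Or.inr fun h4 => h2 ⟨_, step_swap h4 rfl (hs.ne rfl)⟩⟩
    | false =>
      cases j with
      | zero => exact absurd ⟨_, step_flip hs.len fun h3 => h1 (by rw [start_eq, h3])⟩ h2
      | succ j => exact absurd ⟨_, step_fill hs.len hs.le⟩ h2

theorem wf (I : EOL) : (M I).WF noSym := by
  refine ⟨?_, fun x hx hf => ?_⟩
  · rw [start_eq]
    exact valid_en ⟨length_z, Nat.zero_le _, by simp⟩
  · obtain ⟨ph, v, j, -, rfl⟩ := valid_inv hx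
    rw [en_first] at hf
    simp only [Bool.and_eq_true, Bool.not_eq_eq_eq_not, Bool.not_true, decide_eq_true_eq] at hf
    rw [start_eq, hf.1.1, hf.1.2, hf.2]

/-! ### Polynomial time -/

section PT

variable {α : Type} [Enc α] {J : α → EOL} {k i : α → ℕ} {y : Fin 16 → α → Bool}

@[fun_prop]
theorem dpt_xor {f g : α → Bool} (hf : DPT f) (hg : DPT g) : DPT fun a => xor (f a) (g a) :=
  ((hf.and hg.not).or (hf.not.and hg)).congr fun a => by cases f a <;> cases g a <;> rfl

@[fun_prop]
theorem dpt_ev3 {f g : α → Bool} (hi : DPT i) (hf : DPT f) (hg : DPT g) :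
    DPT fun a => ev3 (i a) (f a) (g a) := by
  unfold ev3
  fun_prop

@[fun_prop]
theorem dpt_n1 (hJ : DPT J) : DPT fun a => n1 (J a) := by unfold n1; fun_prop

@[fun_prop]
theorem dpt_n2 (hJ : DPT J) : DPT fun a => n2 (J a) := by unfold n2; fun_prop

@[fun_prop]
theorem dpt_G (hJ : DPT J) : DPT fun a => G (J a) := by unfold G; fun_prop

theorem pbd_G (hJ : DPT J) : PBd fun a => G (J a) := by unfold G n2 n1; fun_prop

@[fun_prop]
theorem dpt_sh (hJ : DPT J) (hi : DPT i) : DPT fun a => sh (J a) (i a) := by unfold sh; fun_prop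

@[fun_prop]
theorem dpt_gS (hJ : DPT J) (hi : DPT i) : DPT fun a => gS (J a) (i a) := by unfold gS; fun_prop

@[fun_prop]
theorem dpt_gP (hJ : DPT J) (hi : DPT i) : DPT fun a => gP (J a) (i a) := by unfold gP; fun_prop

@[fun_prop]
theorem dpt_tg (hJ : DPT J) (hi : DPT i) : DPT fun a => tg (J a) (i a) := by unfold tg; fun_prop

@[fun_prop]
theorem dpt_ia (hJ : DPT J) (hi : DPT i) : DPT fun a => ia (J a) (i a) := by unfold ia; fun_prop

@[fun_prop]
theorem dpt_ib (hJ : DPT J) (hi : DPT i) : DPT fun a => ib (J a) (i a) := by unfold ib; fun_prop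

@[fun_prop]
theorem dpt_oS (hJ : DPT J) (hi : DPT i) : DPT fun a => oS (J a) (i a) := by unfold oS; fun_prop

@[fun_prop]
theorem dpt_oP (hJ : DPT J) (hi : DPT i) : DPT fun a => oP (J a) (i a) := by unfold oP; fun_prop

@[fun_prop]
theorem dpt_c (hJ : DPT J) (hi : DPT i) : DPT fun a => c (J a) (i a) := by
  unfold c tab z
  fun_prop

theorem dpt_valN (hJ : DPT J) (hk : DPT k) (hi : DPT i) (hy : ∀ j, DPT (y j)) :
    DPT fun a => valN (J a) (k a) (i a) fun j => y j a := by
  unfold valN itq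
  fun_prop

theorem dpt_upN (hJ : DPT J) (hk : DPT k) (hi : DPT i) (hy : ∀ j, DPT (y j)) :
    DPT fun a => upN (J a) (k a) (i a) fun j => y j a := by
  unfold upN itq
  fun_prop

theorem dpt_downN (hJ : DPT J) (hk : DPT k) (hi : DPT i) (hy : ∀ j, DPT (y j)) :
    DPT fun a => downN (J a) (k a) (i a) fun j => y j a := by
  unfold downN
  fun_prop

theorem dpt_pos (hJ : DPT J) (hk : DPT k) (hi : DPT i) : DPT fun a => pos (J a) (k a) (i a) :=
  DPT.of_enc (f := fun a => (k a % 6, i a % G (J a))) (by fun_prop) fun _ => rfl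

end PT

theorem rule_pt {f : ∀ _ : EOL, ℕ → ℕ → (Fin 16 → Bool) → Bool}
    (hf : ∀ {α : Type} [Enc α] {J : α → EOL} {k i : α → ℕ} {y : Fin 16 → α → Bool}, DPT J → DPT k →
      DPT i → (∀ j, DPT (y j)) → DPT fun a => f (J a) (k a) (i a) fun j => y j a) :
    RulePT (S := fun _ => Unit) (A := fun _ => Bool) (B := fun _ => Bool)
      fun (I : EOL) (p : X I) _ => rule I (f I) p := by
  refine ⟨fun j => ?_, ?_⟩
  · have h1 : DPT fun x : Σ I, X I × Unit => (x.2.1.1 : ℕ) :=
      DPT.of_enc (f := fun x : Σ I, X I × Unit => x.2.1.1) (by fun_prop) fun _ => rfl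
    have h2 : DPT fun x : Σ I, X I × Unit => (x.2.1.2 : ℕ) :=
      DPT.of_enc (f := fun x : Σ I, X I × Unit => x.2.1.2) (by fun_prop) fun _ => rfl
    have h3 : DPT fun x : Σ I, X I × Unit => x.1 := by fun_prop
    refine DPT.pair DPT.none (dpt_pos h3 ?_ ?_)
    · unfold pk
      fun_prop
    · unfold pa
      fun_prop
  · have h1 : DPT fun x : Σ I, (X I × Unit) × (Fin 16 → Bool) => (x.2.1.1.1 : ℕ) :=
      DPT.of_enc (f := fun x : Σ I, (X I × Unit) × (Fin 16 → Bool) => x.2.1.1.1) (by fun_prop)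
        fun _ => rfl
    have h2 : DPT fun x : Σ I, (X I × Unit) × (Fin 16 → Bool) => (x.2.1.1.2 : ℕ) :=
      DPT.of_enc (f := fun x : Σ I, (X I × Unit) × (Fin 16 → Bool) => x.2.1.1.2) (by fun_prop)
        fun _ => rfl
    exact hf (J := fun x : Σ I, (X I × Unit) × (Fin 16 → Bool) => x.1)
      (y := fun j x => x.2.2 j) (by fun_prop) h1 h2 fun j => dpt_funAt DPT.ssnd.snd j

theorem enc_map_congr {κ μ : Type} [Enc κ] [Enc μ] (f : κ → μ) (h : ∀ x, enc (f x) = enc x)
    (l : List κ) : enc (l.map f) = enc l := by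
  induction l with
  | nil => rfl
  | cons a l ih => rw [List.map_cons, enc_cons, enc_cons, ih, h]

theorem dpt_elems : DPT fun I : EOL => elems (X I) := by
  have h0 := pbd_G (DPT.id (α := EOL))
  have h1 : DPT fun I : EOL => List.finRange (G I) :=
    DPT.of_enc (f := fun I : EOL => List.range (G I)) (by fun_prop) fun I => by
      rw [← List.map_coe_finRange_eq_range]
      exact enc_map_congr (fun x : Fin (G I) => (x : ℕ)) (fun _ => rfl) _
  have h2 : DPT fun p : Σ _ : EOL, {x // x ∈ List.finRange 6} =>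
      (List.finRange (G p.1)).map (Prod.mk p.2.1) :=
    DPT.map (h1.comp DPT.id.sfst) (DPT.pair (by fun_prop) DPT.ssnd.val)
  exact DPT.flatMap (f := fun I (k : Fin 6) => (List.finRange (G I)).map (Prod.mk k))
    (DPT.const _) h2

/-- the family of the sets of variables -/
def XF : TF EOL where
  T := X
  ne I := ⟨pos I 0 0⟩
  pt := dpt_elems

end Vale.Agent.P330.Eol

namespace Vale.Agent.P330

open Vale.Agent.Lib.PolyTime hiding C P
open Vale.Agent.Lib.Dep
open Eol

/-- T7a: End-of-Line as a local Boolean line system. -/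
theorem eolStmt : EolStmt := by
  refine ⟨16, XF, M, dec, ⟨rule_pt dpt_valN, rule_pt fun hJ hk hi hy => ?_,
    rule_pt fun hJ hk hi hy => ?_, fun j => j.elim0, DPT.id.of_enc fun x => x.2.elim0, ?_, ?_⟩,
    (QL.N.mul (PL.const 6)).mono fun I => ?_, ?_,
    fun I => ⟨wf I, fun x hx => ?_, fun x hx => ends hx⟩⟩
  · exact DPT.ite (DPr.eq (hy 0) (DPT.const _)) (dpt_downN hJ hk hi hy) (dpt_upN hJ hk hi hy)
  · exact DPT.ite (DPr.eq (hy 0) (DPT.const _)) (dpt_upN hJ hk hi hy) (dpt_downN hJ hk hi hy)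
  · exact dpt_pos DPT.id (DPT.const 4) (DPT.const 0)
  · exact dpt_pos DPT.id (DPT.const 5) (DPT.const 0)
  · have h1 := I.size_le
    have h2 : Fintype.card (XF.T I) = 6 * G I :=
      (Fintype.card_prod (Fin 6) (Fin (G I))).trans (by simp)
    rw [h2, G, n2, n1]
    omega
  · have h1 : DPT fun x : Σ I, Vec (X I) Bool => (elems (X x.1)).map x.2 :=
      DPT.of_enc (f := fun x : Σ I, Vec (X I) Bool => x.2) DPT.ssnd fun _ => rfl
    exact h1.take (dpt_n DPT.id.sfst)
  · obtain ⟨ph, v, j, -, rfl⟩ := valid_inv hx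
    exact en_last

end Vale.Agent.P330
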