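import Vale.Agent.P330.Eol.Tab

/-!
P330, End-of-Line as a local system: the local functions and their values on the codes of the
states. The kinds of variables are `0` the complete tableau (added to the tableau of the zero
vertex), `1` the tableau which is filled or erased, `2` the clock, `3` the phase, `4` the flag of
the start state, `5` unused.
-/

namespace Vale.Agent.P330.Eol

variable (I : EOL)

/-- the tableau of the zero vertex -/
def c (i : ℕ) : Bool := tab I (z I) i

/-- the kinds of the variables which are read -/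
def pk (k : ℕ) (j : ℕ) : ℕ := [3, 2, 2, 0, 2, 2, 2, 0, 1, 0, 0, 1, 1, 0, 0, k].getD j 0

/-- the items of the variables which are read -/
def pa (i : ℕ) (j : ℕ) : ℕ :=
  [0, 0, G I - 1, G I - 1, i - 1, i, i + 1, i, i, ia I i, ib I i, ia I i, ib I i, oS I i, oP I i,
    i].getD j 0

/-- the value of the item `i` of the second tableau computed from the earlier ones -/
def itq (i : ℕ) (y : Fin 16 → Bool) : Bool :=
  if i < I.n then (if y 0 = true then xor (y 14) (c I (oP I i)) else xor (y 13) (c I (oS I i)))
  else ev3 (tg I i) (y 11) (y 12)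

/-- the constraints -/
def valN (k i : ℕ) (y : Fin 16 → Bool) : Bool :=
  if k = 0 then decide (i < I.n ∨ xor (y 7) (c I i) =
    ev3 (tg I i) (xor (y 9) (c I (ia I i))) (xor (y 10) (c I (ib I i))))
  else if k = 1 then decide (y 8 = (y 5 && itq I i y))
  else if k = 2 then !y 5 || decide (i = 0) || y 4
  else if k = 3 ∧ i = 0 then !y 0 || y 3
  else if k = 4 ∧ i = 0 then decide (y 15 = (!y 0 && !y 1 && !y 3))
  else !y 15

/-- fill one more item, or exchange the two tableaux -/
def upN (k i : ℕ) (y : Fin 16 → Bool) : Bool :=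
  if k = 0 then (if y 2 = true then xor (y 8) (c I i) else y 7)
  else if k = 1 then
    (if y 2 = true then xor (y 7) (c I i) else (decide (i = 0) || y 4) && itq I i y)
  else if k = 2 then decide (i = 0) || y 4
  else if k = 3 ∧ i = 0 then xor (y 0) (y 2)
  else false

/-- erase one item, or change the phase -/
def downN (k i : ℕ) (y : Fin 16 → Bool) : Bool :=
  if k = 0 then y 7
  else if k = 1 then decide (i + 1 < G I) && y 6 && y 8
  else if k = 2 then decide (i + 1 < G I) && y 6
  else if k = 3 ∧ i = 0 then xor (y 0) (!y 1)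
  else if k = 4 ∧ i = 0 then !y 0 && y 1 && !y 6 && !y 3
  else false

/-- the successor -/
def sucN (k i : ℕ) (y : Fin 16 → Bool) : Bool :=
  if y 0 = true then downN I k i y else upN I k i y

/-- the predecessor -/
def preN (k i : ℕ) (y : Fin 16 → Bool) : Bool :=
  if y 0 = true then upN I k i y else downN I k i y

/-- the local view of the variable `(k, i)` -/
def view (r : ℕ → ℕ → Bool) (k i : ℕ) : Fin 16 → Bool := fun j => r (pk k j) (pa I i j)

/-- the vertex of the second tableau -/
def src (ph : Bool) (v : List Bool) : List Bool := if ph = true then I.P.eval v else I.S.eval v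

/-- the code of the state with phase `ph`, vertex `v` and clock `j` -/
def e (ph : Bool) (v : List Bool) (j : ℕ) (k i : ℕ) : Bool :=
  if k = 0 then xor (tab I v i) (c I i)
  else if k = 1 then decide (i < j) && tab I (src I ph v) i
  else if k = 2 then decide (i < j)
  else if k = 3 ∧ i = 0 then ph
  else if k = 4 ∧ i = 0 then !ph && decide (j = 0) && decide (v = z I)
  else false

/-- the states -/
structure OK (ph : Bool) (v : List Bool) (j : ℕ) : Prop where
  len : v.length = I.n
  le : j ≤ G I
  ne : ph = true → v ≠ z I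

/-- The values `r` are the code of the state. -/
def Is (r : ℕ → ℕ → Bool) (ph : Bool) (v : List Bool) (j : ℕ) : Prop :=
  ∀ k < 6, ∀ i < G I, r k i = e I ph v j k i

variable {I}

theorem length_src (ph : Bool) (v : List Bool) : (src I ph v).length = I.n := by
  rw [src]
  split_ifs <;> exact BCirc.length_eval _ _

theorem c_last : c I (G I - 1) = false := by rw [c, tab_last length_z]; simp

section View

variable (r : ℕ → ℕ → Bool) (k i : ℕ)

theorem view0 : view I r k i 0 = r 3 0 := rfl
theorem view1 : view I r k i 1 = r 2 0 := rfl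
theorem view2 : view I r k i 2 = r 2 (G I - 1) := rfl
theorem view3 : view I r k i 3 = r 0 (G I - 1) := rfl
theorem view4 : view I r k i 4 = r 2 (i - 1) := rfl
theorem view5 : view I r k i 5 = r 2 i := rfl
theorem view6 : view I r k i 6 = r 2 (i + 1) := rfl
theorem view7 : view I r k i 7 = r 0 i := rfl
theorem view8 : view I r k i 8 = r 1 i := rfl
theorem view9 : view I r k i 9 = r 0 (ia I i) := rfl
theorem view10 : view I r k i 10 = r 0 (ib I i) := rfl
theorem view11 : view I r k i 11 = r 1 (ia I i) := rfl
theorem view12 : view I r k i 12 = r 1 (ib I i) := rfl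
theorem view13 : view I r k i 13 = r 0 (oS I i) := rfl
theorem view14 : view I r k i 14 = r 0 (oP I i) := rfl
theorem view15 : view I r k i 15 = r k i := rfl

end View

variable {r : ℕ → ℕ → Bool} {ph : Bool} {v : List Bool} {j : ℕ}

theorem Is.r0 (h : Is I r ph v j) {i : ℕ} (hi : i < G I) : r 0 i = xor (tab I v i) (c I i) :=
  h 0 (by norm_num) i hi

theorem Is.r1 (h : Is I r ph v j) {i : ℕ} (hi : i < G I) :
    r 1 i = (decide (i < j) && tab I (src I ph v) i) := h 1 (by norm_num) i hi

theorem Is.r2 (h : Is I r ph v j) {i : ℕ} (hi : i < G I) : r 2 i = decide (i < j) :=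
  h 2 (by norm_num) i hi

theorem Is.r3 (h : Is I r ph v j) : r 3 0 = ph :=
  h 3 (by norm_num) 0 (by have := two_le_G (I := I); omega)

theorem Is.r4 (h : Is I r ph v j) : r 4 0 = (!ph && decide (j = 0) && decide (v = z I)) :=
  h 4 (by norm_num) 0 (by have := two_le_G (I := I); omega)

theorem Is.nz (h : Is I r ph v j) (hv : v.length = I.n) : r 0 (G I - 1) = decide (v ≠ z I) := by
  rw [h.r0 (by have := two_le_G (I := I); omega), c_last, tab_last hv, Bool.xor_false]

theorem n2_le_G : n2 I ≤ G I := Nat.le_add_right _ _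

theorem n1_le_G : n1 I ≤ G I := (Nat.le_add_right _ _).trans n2_le_G

/-- the vertex bits of the second tableau -/
theorem itq_in {k i : ℕ} (hv : v.length = I.n) (h0 : ∀ a < G I, xor (r 0 a) (c I a) = tab I v a)
    (hi : i < I.n) : itq I i (view I r k i) = (src I (r 3 0) v).getD i false := by
  rw [itq, if_pos hi, view0, view13, view14, h0 _ ((oP_lt hi).trans_le n2_le_G),
    h0 _ ((oS_lt hi).trans_le n1_le_G), tab_oP hv hi, tab_oS hi, src]
  split_ifs <;> rfl

theorem Is.x0 (h : Is I r ph v j) : ∀ a < G I, xor (r 0 a) (c I a) = tab I v a := fun a ha => by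
  rw [h.r0 ha]; simp

theorem Is.itq (h : Is I r ph v j) (hv : v.length = I.n) {k i : ℕ} (hi : i < G I) (hj : i ≤ j) :
    itq I i (view I r k i) = tab I (src I ph v) i := by
  by_cases h1 : i < I.n
  · rw [itq_in hv h.x0 h1, h.r3, tab_in (length_src _ _) h1]
  · have hl := in_lt (not_lt.1 h1) hi
    rw [Eol.itq, if_neg h1, view11, view12, h.r1 (hl.1.trans hi), h.r1 (hl.2.trans hi),
      decide_eq_true (hl.1.trans_le hj), decide_eq_true (hl.2.trans_le hj), Bool.true_and,
      Bool.true_and, ← tab_gate (length_src _ _) (not_lt.1 h1) hi]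

/-- The codes of states satisfy the constraints. -/
theorem Is.val (h : Is I r ph v j) (hs : OK I ph v j) {k i : ℕ} (hk : k < 6) (hi : i < G I) :
    valN I k i (view I r k i) = true := by
  have h2 := two_le_G (I := I)
  rw [valN]
  split_ifs with h0 h1 h3 h4 h5
  · rw [decide_eq_true_eq, or_iff_not_imp_left]
    intro h6
    have hl := in_lt (not_lt.1 h6) hi
    rw [view7, view9, view10, h.x0 _ hi, h.x0 _ (hl.1.trans hi), h.x0 _ (hl.2.trans hi),
      ← tab_gate hs.len (not_lt.1 h6) hi]
  · rw [decide_eq_true_eq, view8, view5, h.r1 hi, h.r2 hi]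
    by_cases h6 : i < j
    · rw [h.itq hs.len hi h6.le]
    · simp [h6]
  · rw [view5, view4, h.r2 hi, h.r2 (by omega)]
    simp only [Bool.or_eq_true, Bool.not_eq_eq_eq_not, Bool.not_true, decide_eq_false_iff_not,
      decide_eq_true_eq]
    omega
  · rw [view0, view3, h.r3, h.nz hs.len]
    have := hs.ne
    cases ph <;> simp_all
  · rw [decide_eq_true_eq, view15, view0, view1, view3, h5.1, h5.2, h.r4, h.r3, h.nz hs.len,
      h.r2 (by omega)]
    by_cases h6 : j = 0 <;> simp [h6, Nat.pos_iff_ne_zero]
  · rw [view15, h k hk i hi, e, if_neg h0, if_neg h1, if_neg h3, if_neg h4, if_neg h5]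
    rfl

theorem thermo {m : ℕ → Bool} {n : ℕ} (h : ∀ i, i + 1 < n → m (i + 1) = true → m i = true) :
    ∃ j ≤ n, ∀ i < n, m i = decide (i < j) := by
  induction n with
  | zero => exact ⟨0, le_rfl, fun i hi => absurd hi (Nat.not_lt_zero i)⟩
  | succ n ih =>
    obtain ⟨j, hj, hm⟩ := ih fun i hi => h i (by omega)
    by_cases h1 : m n = true
    · refine ⟨n + 1, le_rfl, fun i hi => ?_⟩
      rw [decide_eq_true hi]
      rcases Nat.lt_succ_iff_lt_or_eq.1 hi with h2 | h2
      · obtain ⟨n', rfl⟩ : ∃ n', n = n' + 1 := ⟨n - 1, by omega⟩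
        have h3 := hm n' (by omega)
        rw [h n' (by omega) h1] at h3
        have h4 : n' < j := by simpa using h3
        rw [hm i h2, decide_eq_true (by omega)]
      · rwa [h2]
    · refine ⟨j, by omega, fun i hi => ?_⟩
      rcases Nat.lt_succ_iff_lt_or_eq.1 hi with h2 | h2
      · exact hm i h2
      · rw [h2, decide_eq_false (by omega)]
        simpa using h1

/-- Assignments which satisfy the constraints are codes of states. -/
theorem exists_is (h : ∀ k < 6, ∀ i < G I, valN I k i (view I r k i) = true) :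
    ∃ ph v j, OK I ph v j ∧ Is I r ph v j := by
  have h2 := two_le_G (I := I)
  obtain ⟨j, hj, hm⟩ := thermo (m := r 2) (n := G I) fun i hi hr => by
    have h1 := h 2 (by norm_num) (i + 1) hi
    simpa [valN, view4, view5, hr] using h1
  obtain ⟨v, hv, hv'⟩ : ∃ v : List Bool, v.length = I.n ∧
      ∀ i < I.n, v.getD i false = xor (r 0 i) (c I i) := by
    refine ⟨(List.range I.n).map fun i => xor (r 0 i) (c I i), by simp, fun i hi => ?_⟩
    rw [List.getD_eq_getElem _ _ (by simpa using hi)]
    simp
  have h0 : ∀ a < G I, xor (r 0 a) (c I a) = tab I v a := by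
    refine tab_uniq (t := fun a => xor (r 0 a) (c I a)) hv le_rfl fun i hi => ?_
    split_ifs with h1
    · exact (hv' i h1).symm
    · have h3 := h 0 (by norm_num) i hi
      rw [valN, if_pos rfl, decide_eq_true_eq, view7, view9, view10] at h3
      exact h3.resolve_left h1
  have h1 : ∀ i < G I, r 1 i = (decide (i < j) && itq I i (view I r 1 i)) := fun i hi => by
    have h3 := h 1 (by norm_num) i hi
    rwa [valN, if_neg (by norm_num), if_pos rfl, decide_eq_true_eq, view8, view5, hm i hi] at h3
  have h1' : ∀ i < j, r 1 i = tab I (src I (r 3 0) v) i := by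
    refine tab_uniq (length_src _ _) hj fun i hi => ?_
    rw [h1 i (by omega), decide_eq_true hi, Bool.true_and]
    split_ifs with h3
    · exact itq_in hv h0 h3
    · rw [itq, if_neg h3, view11, view12]
  have hz : r 0 (G I - 1) = decide (v ≠ z I) := by
    rw [← tab_last hv, ← h0 _ (by omega), c_last, Bool.xor_false]
  refine ⟨r 3 0, v, j, ⟨hv, hj, fun hp => ?_⟩, fun k hk i hi => ?_⟩
  · have h3 := h 3 (by norm_num) 0 (by omega)
    simpa [valN, view0, view3, hp, hz] using h3
  · have h3 := h k hk i hi
    rw [valN] at h3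
    rw [e]
    split_ifs at h3 ⊢ with h4 h5 h6 h7 h8
    · rw [h4, ← h0 i hi]; simp
    · rw [h5]
      by_cases h9 : i < j
      · rw [h1' i h9, decide_eq_true h9, Bool.true_and]
      · rw [h1 i hi, decide_eq_false h9, Bool.false_and, Bool.false_and]
    · rw [h6, hm i hi]
    · rw [h7.1, h7.2]
    · rw [decide_eq_true_eq, view15, view0, view1, view3, hz, hm 0 (by omega)] at h3
      rw [h3]
      by_cases h9 : j = 0 <;> simp [h9, Nat.pos_iff_ne_zero]
    · simpa [view15] using h3

theorem Is.up (h : Is I r ph v j) (hv : v.length = I.n) (hj : j < G I) {k i : ℕ} (hi : i < G I) :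
    upN I k i (view I r k i) = e I ph v (j + 1) k i := by
  have h1 : view I r k i 2 = false := by
    rw [view2, h.r2 (by omega), decide_eq_false (by omega)]
  have h2 : (decide (i = 0) || view I r k i 4) = decide (i < j + 1) := by
    rw [view4, h.r2 (by omega), Bool.eq_iff_iff]
    simp only [Bool.or_eq_true, decide_eq_true_eq]
    omega
  rw [upN, e, h1, h2]
  simp only [Bool.false_eq_true, if_false]
  split_ifs with h3 h4 h5 h6 h7
  · rw [view7, h.r0 hi]
  · by_cases h8 : i < j + 1
    · rw [h.itq hv hi (by omega)]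
    · simp [h8]
  · rfl
  · rw [view0, h.r3, Bool.xor_false]
  · simp
  · rfl

theorem Is.swap (h : Is I r ph v (G I)) (hw : src I (!ph) (src I ph v) = v) {k i : ℕ}
    (hi : i < G I) : upN I k i (view I r k i) = e I (!ph) (src I ph v) (G I) k i := by
  have h1 : view I r k i 2 = true := by
    rw [view2, h.r2 (by omega), decide_eq_true (by omega)]
  rw [upN, e, h1, hw]
  simp only [if_true]
  split_ifs with h3 h4 h5 h6 h7
  · rw [view8, h.r1 hi, decide_eq_true hi, Bool.true_and]
  · rw [view7, h.x0 _ hi, decide_eq_true hi, Bool.true_and]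
  · rw [view4, h.r2 (by omega), decide_eq_true hi, decide_eq_true (show i - 1 < G I by omega),
      Bool.or_true]
  · rw [view0, h.r3, Bool.xor_true]
  · rw [decide_eq_false (show G I ≠ 0 by omega)]; simp
  · rfl

theorem Is.m6 (h : Is I r ph v j) (hj : j ≤ G I) {k i : ℕ} :
    (decide (i + 1 < G I) && view I r k i 6) = decide (i + 1 < j) := by
  by_cases h1 : i + 1 < G I
  · rw [view6, h.r2 h1, decide_eq_true h1, Bool.true_and]
  · rw [decide_eq_false h1, decide_eq_false (show ¬ i + 1 < j by omega), Bool.false_and]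

theorem Is.down (h : Is I r ph v (j + 1)) (hv : v.length = I.n) (hj : j < G I) {k i : ℕ}
    (hi : i < G I) : downN I k i (view I r k i) = e I ph v j k i := by
  have h0 := two_le_G (I := I)
  rw [downN, e, h.m6 hj]
  split_ifs with h3 h4 h5 h6 h7
  · rw [view7, h.r0 hi]
  · rw [view8, h.r1 hi]
    by_cases h8 : i < j
    · simp [h8, Nat.lt_succ_of_lt h8]
    · simp [h8]
  · simp
  · rw [view0, view1, h.r3, h.r2 (by omega)]; simp
  · rw [view0, view1, view6, view3, h.r3, h.r2 (by omega), h7.2, h.r2 (by omega), h.nz hv]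
    by_cases h9 : j = 0 <;> simp [h9, Nat.pos_iff_ne_zero]
  · rfl

theorem Is.flip (h : Is I r ph v 0) (hz : v ≠ z I) {k i : ℕ} (hi : i < G I) :
    downN I k i (view I r k i) = e I (!ph) v 0 k i := by
  rw [downN, e, h.m6 (Nat.zero_le _)]
  split_ifs with h3 h4 h5 h6 h7
  · rw [view7, h.r0 hi]
  · simp
  · simp
  · rw [view0, view1, h.r3, h.r2 (by omega)]; simp
  · rw [view1, h.r2 (by omega)]; simp [hz]
  · rfl

end Vale.Agent.P330.Eol
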