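import Vale.Agent.P330.Stmts

/-!
P330, End-of-Line as a local system: the tableau of a vertex (the vertex, the wires of the two
circuits, and a chain of disjunctions which tests whether the vertex is zero).
-/

namespace Vale.Agent.P330.Eol

/-- the value of a gate of the given type -/
def ev3 (t : ℕ) (a b : Bool) : Bool := if t = 0 then a && b else if t = 1 then a || b else !a

theorem foldl_getD_lt (l : List BGate) (v : List Bool) {i : ℕ} (hi : i < v.length) :
    (l.foldl (fun w g => w ++ [g.eval w]) v).getD i false = v.getD i false := by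
  induction l generalizing v with
  | nil => rfl
  | cons g l ih =>
    rw [List.foldl_cons, ih _ (by rw [List.length_append]; omega), List.getD_append _ _ _ _ hi]

theorem foldl_getD_gate (l : List BGate) (v : List Bool) {k : ℕ} (hk : k < l.length)
    (d : BGate) (h1 : (l.getD k d).fst < v.length + k) (h2 : (l.getD k d).snd < v.length + k) :
    (l.foldl (fun w g => w ++ [g.eval w]) v).getD (v.length + k) false =
      ev3 (l.getD k d).tag ((l.foldl (fun w g => w ++ [g.eval w]) v).getD (l.getD k d).fst false)
        ((l.foldl (fun w g => w ++ [g.eval w]) v).getD (l.getD k d).snd false) := by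
  induction l generalizing v k with
  | nil => simp at hk
  | cons g l ih =>
    rw [List.foldl_cons]
    cases k with
    | zero =>
      rw [List.getD_cons_zero] at h1 h2 ⊢
      rw [Nat.add_zero] at h1 h2 ⊢
      have h3 : ∀ i, i ≤ v.length → i < (v ++ [g.eval v]).length := fun i hi => by
        rw [List.length_append, List.length_singleton]; omega
      rw [foldl_getD_lt _ _ (h3 _ le_rfl), foldl_getD_lt _ _ (h3 _ h1.le),
        foldl_getD_lt _ _ (h3 _ h2.le), List.getD_append _ _ _ _ h1, List.getD_append _ _ _ _ h2,
        List.getD_append_right _ _ _ _ le_rfl, Nat.sub_self, List.getD_cons_zero, BGate.eval_eq]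
      rfl
    | succ k =>
      rw [List.getD_cons_succ] at h1 h2 ⊢
      have h3 : (v ++ [g.eval v]).length + k = v.length + (k + 1) := by
        rw [List.length_append, List.length_singleton]; omega
      rw [← h3] at h1 h2 ⊢
      exact ih _ (by simpa using hk) h1 h2

theorem gate_lt {n : ℕ} (hn : 1 ≤ n) (C : BCirc n) {k : ℕ} (hk : k < C.gates.length) (d : BGate) :
    (C.gates.getD k d).fst < n + k ∧ (C.gates.getD k d).snd < n + k := by
  have h := C.acyclic k hk
  rw [List.getD_eq_getElem _ _ hk]
  generalize C.gates[k] = g at h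
  cases g with
  | and a b => exact ⟨h a (by simp [BGate.ins]), h b (by simp [BGate.ins])⟩
  | or a b => exact ⟨h a (by simp [BGate.ins]), h b (by simp [BGate.ins])⟩
  | not a => exact ⟨h a (by simp [BGate.ins]), by simp only [BGate.snd]; omega⟩

theorem wires_lt {n : ℕ} (C : BCirc n) {v : List Bool} (hv : v.length = n) {i : ℕ} (hi : i < n) :
    (C.wires v).getD i false = v.getD i false := foldl_getD_lt _ _ (by omega)

theorem wires_gate {n : ℕ} (hn : 1 ≤ n) (C : BCirc n) {v : List Bool} (hv : v.length = n) {k : ℕ}
    (hk : k < C.gates.length) (d : BGate) :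
    (C.wires v).getD (n + k) false = ev3 (C.gates.getD k d).tag
      ((C.wires v).getD (C.gates.getD k d).fst false)
      ((C.wires v).getD (C.gates.getD k d).snd false) := by
  have h := gate_lt hn C hk d
  subst hv
  exact foldl_getD_gate _ _ hk d h.1 h.2

theorem eval_getD {n : ℕ} (C : BCirc n) (v : List Bool) {k : ℕ} (hk : k < n) :
    (C.eval v).getD k false = (C.wires v).getD (C.outs.getD k 0) false := by
  have h : k < C.outs.length := by rw [C.length_outs]; exact hk
  rw [BCirc.eval_eq, List.getD_eq_getElem _ _ (by rwa [List.length_map]), List.getElem_map,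
    List.getD_eq_getElem _ _ h]

theorem outs_getD_lt {n : ℕ} (C : BCirc n) {k : ℕ} (hk : k < n) :
    C.outs.getD k 0 < n + C.gates.length := by
  have h : k < C.outs.length := by rw [C.length_outs]; exact hk
  rw [List.getD_eq_getElem _ _ h]
  exact C.outs_lt _ (List.getElem_mem h)

variable (I : EOL)

/-- the end of the wires of the first circuit -/
def n1 : ℕ := I.n + I.S.gates.length

/-- the end of the wires of the second circuit -/
def n2 : ℕ := n1 I + I.P.gates.length

/-- the number of items -/
def G : ℕ := n2 I + I.n

/-- the item of a wire of the second circuit -/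
def sh (a : ℕ) : ℕ := if a < I.n then a else a + I.S.gates.length

/-- the gate of an item in the first circuit -/
def gS (i : ℕ) : BGate := I.S.gates.getD (i - I.n) (.not 0)

/-- the gate of an item in the second circuit -/
def gP (i : ℕ) : BGate := I.P.gates.getD (i - n1 I) (.not 0)

/-- the type of the gate of an item -/
def tg (i : ℕ) : ℕ := if i < n1 I then (gS I i).tag else if i < n2 I then (gP I i).tag else 1

/-- the first input of an item -/
def ia (i : ℕ) : ℕ :=
  if i < n1 I then (gS I i).fst else if i < n2 I then sh I (gP I i).fst else i - n2 I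

/-- the second input of an item -/
def ib (i : ℕ) : ℕ :=
  if i < n1 I then (gS I i).snd else if i < n2 I then sh I (gP I i).snd
  else if i = n2 I then 0 else i - 1

/-- the item of an output of the first circuit -/
def oS (k : ℕ) : ℕ := I.S.outs.getD k 0

/-- the item of an output of the second circuit -/
def oP (k : ℕ) : ℕ := sh I (I.P.outs.getD k 0)

/-- the tableau of a vertex -/
def tab (v : List Bool) (i : ℕ) : Bool :=
  if i < n1 I then (I.S.wires v).getD i false
  else if i < n2 I then (I.P.wires v).getD (i - I.S.gates.length) false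
  else (v.take (i - n2 I + 1)).any fun b => b

/-- the zero vertex -/
def z : List Bool := List.replicate I.n false

variable {I}

theorem two_le_G : 2 ≤ G I := by
  have := I.pos
  simp only [G, n2, n1]
  omega

theorem n_lt_G : I.n < G I := by
  have := I.pos
  simp only [G, n2, n1]
  omega

theorem in_lt {i : ℕ} (h1 : I.n ≤ i) (h2 : i < G I) : ia I i < i ∧ ib I i < i := by
  have hp := I.pos
  simp only [ia, ib, G] at *
  split_ifs with h3 h4 h5
  · have := gate_lt hp I.S (k := i - I.n) (by simp only [n1] at h3; omega) (.not 0)
    simp only [gS]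
    omega
  · have := gate_lt hp I.P (k := i - n1 I) (by simp only [n2] at h4; omega) (.not 0)
    have h6 : ∀ a, sh I a ≤ a + I.S.gates.length := fun a => by rw [sh]; split_ifs <;> omega
    have h7 := h6 (gP I i).fst
    have h8 := h6 (gP I i).snd
    simp only [gP] at h7 h8 ⊢
    simp only [n1] at h3 this h7 h8 ⊢
    omega
  · simp only [n2, n1] at *
    omega
  · simp only [n2, n1] at *
    omega

theorem oS_lt {k : ℕ} (hk : k < I.n) : oS I k < n1 I := outs_getD_lt I.S hk

theorem oP_lt {k : ℕ} (hk : k < I.n) : oP I k < n2 I := by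
  have := outs_getD_lt I.P hk
  simp only [oP, sh, n2, n1]
  split_ifs <;> omega

theorem tab_in {v : List Bool} (hv : v.length = I.n) {i : ℕ} (hi : i < I.n) :
    tab I v i = v.getD i false := by
  rw [tab, if_pos (by simp only [n1]; omega), wires_lt _ hv hi]

theorem tab_sh {v : List Bool} (hv : v.length = I.n) {a : ℕ} (ha : a < I.n + I.P.gates.length) :
    tab I v (sh I a) = (I.P.wires v).getD a false := by
  rw [sh]
  split_ifs with h
  · rw [tab_in hv h, wires_lt _ hv h]
  · rw [tab, if_neg (by simp only [n1]; omega), if_pos (by simp only [n2, n1]; omega),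
      Nat.add_sub_cancel]

theorem tab_oS {v : List Bool} {k : ℕ} (hk : k < I.n) :
    tab I v (oS I k) = (I.S.eval v).getD k false := by
  rw [tab, if_pos (oS_lt hk), eval_getD _ _ hk, oS]

theorem tab_oP {v : List Bool} (hv : v.length = I.n) {k : ℕ} (hk : k < I.n) :
    tab I v (oP I k) = (I.P.eval v).getD k false := by
  rw [oP, tab_sh hv (outs_getD_lt _ hk), eval_getD _ _ hk]

theorem any_take_succ (v : List Bool) (k : ℕ) :
    ((v.take (k + 1)).any fun b => b) = (v.getD k false || (v.take k).any fun b => b) := by
  rw [List.take_add_one, List.any_append, Bool.or_comm, List.getD_eq_getElem?_getD]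
  cases v[k]? <;> simp

theorem tab_gate {v : List Bool} (hv : v.length = I.n) {i : ℕ} (h1 : I.n ≤ i) (h2 : i < G I) :
    tab I v i = ev3 (tg I i) (tab I v (ia I i)) (tab I v (ib I i)) := by
  have hp := I.pos
  have hl := in_lt h1 h2
  by_cases h3 : i < n1 I
  · have h4 := wires_gate hp I.S hv (k := i - I.n) (by simp only [n1] at h3; omega) (.not 0)
    rw [show I.n + (i - I.n) = i by omega] at h4
    rw [tab, tab, tab, if_pos h3, if_pos (hl.1.trans h3), if_pos (hl.2.trans h3), h4, tg, ia, ib,
      if_pos h3, if_pos h3, if_pos h3, gS]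
  by_cases h4 : i < n2 I
  · have h5 : i - n1 I < I.P.gates.length := by simp only [n2] at h4; omega
    have h6 := wires_gate hp I.P hv h5 (.not 0)
    have h7 := gate_lt hp I.P h5 (.not 0)
    rw [tg, ia, ib, if_neg h3, if_neg h3, if_neg h3, if_pos h4, if_pos h4, if_pos h4, gP,
      tab_sh hv (by omega), tab_sh hv (by omega), ← h6, tab, if_neg h3, if_pos h4]
    congr 1
    simp only [n1] at h3 ⊢
    omega
  · have h5 : i - n2 I < I.n := by simp only [G] at h2; omega
    rw [tg, ia, ib, if_neg h3, if_neg h3, if_neg h3, if_neg h4, if_neg h4, if_neg h4,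
      tab_in hv h5, tab, if_neg h3, if_neg h4, any_take_succ, ev3, if_neg (by omega), if_pos rfl]
    split_ifs with h6
    · rw [tab_in hv hp, h6, Nat.sub_self]
      simp
    · have h7 : n1 I ≤ n2 I := Nat.le_add_right _ _
      rw [tab, if_neg (by omega), if_neg (by omega), show i - 1 - n2 I + 1 = i - n2 I by omega]

theorem tab_last {v : List Bool} (hv : v.length = I.n) :
    tab I v (G I - 1) = decide (v ≠ z I) := by
  have hp := I.pos
  have h7 : n1 I ≤ n2 I := Nat.le_add_right _ _
  rw [tab, if_neg (by simp only [G]; omega), if_neg (by simp only [G]; omega),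
    show G I - 1 - n2 I + 1 = v.length by simp only [G]; omega, List.take_length, z, ← hv,
    Bool.eq_iff_iff, decide_eq_true_eq, Ne, List.eq_replicate_iff]
  simp

theorem tab_uniq {v : List Bool} (hv : v.length = I.n) {t : ℕ → Bool} {j : ℕ} (hj : j ≤ G I)
    (h : ∀ i < j, t i = if i < I.n then v.getD i false else ev3 (tg I i) (t (ia I i)) (t (ib I i))) :
    ∀ i < j, t i = tab I v i := by
  intro i
  induction i using Nat.strong_induction_on with
  | _ i ih =>
    intro hi
    rw [h i hi]
    split_ifs with h1
    · rw [tab_in hv h1]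
    · have hl := in_lt (not_lt.1 h1) (hi.trans_le hj)
      rw [ih _ hl.1 (hl.1.trans hi), ih _ hl.2 (hl.2.trans hi),
        ← tab_gate hv (not_lt.1 h1) (hi.trans_le hj)]

theorem length_z : (z I).length = I.n := List.length_replicate

theorem tab_z_in {i : ℕ} (hi : i < I.n) : tab I (z I) i = false := by
  rw [tab_in length_z hi, z, List.getD_eq_getElem?_getD, List.getElem?_replicate, if_pos hi]
  rfl

theorem list_ext {v w : List Bool} {n : ℕ} (hv : v.length = n) (hw : w.length = n)
    (h : ∀ i < n, v.getD i false = w.getD i false) : v = w := by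
  refine List.ext_getElem (hv.trans hw.symm) fun i h1 h2 => ?_
  have := h i (hv ▸ h1)
  rwa [List.getD_eq_getElem _ _ h1, List.getD_eq_getElem _ _ h2] at this

end Vale.Agent.P330.Eol
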